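import Mathlib.Algebra.MvPolynomial.Equiv
import Mathlib.Analysis.Complex.Polynomial.Basic

noncomputable section

namespace Vale.Agent.P295

/-- `f` is sent to one of the variables by an algebra automorphism of the polynomial ring. -/
def IsCoordinate {n : ℕ} (f : MvPolynomial (Fin n) ℂ) : Prop :=
  ∃ φ : MvPolynomial (Fin n) ℂ ≃ₐ[ℂ] MvPolynomial (Fin n) ℂ, ∃ i : Fin n, φ f = MvPolynomial.X i

/-- `f` is a coordinate after adjoining `m ≥ 1` new variables. -/
def IsStableCoordinate {n : ℕ} (f : MvPolynomial (Fin n) ℂ) : Prop :=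
  ∃ m : ℕ, 1 ≤ m ∧ IsCoordinate (MvPolynomial.rename (Fin.castAdd m) f)

end Vale.Agent.P295
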