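import Vale.Agent.P295.Defs
import Mathlib.Algebra.MvPolynomial.PDeriv
import Mathlib.Algebra.MvPolynomial.Division
import Mathlib.Algebra.Polynomial.FieldDivision
import Mathlib.LinearAlgebra.Dual.Lemmas

noncomputable section

namespace Vale.Agent.P295

open MvPolynomial

attribute [-simp] MvPolynomial.aeval_eq_bind₁

variable {n : ℕ}

local instance : DecidableEq ℂ := Classical.decEq ℂ

theorem chain_rule {σ τ : Type*} [Fintype σ] (u : σ → MvPolynomial τ ℂ) (k : τ)
    (p : MvPolynomial σ ℂ) :
    pderiv k (aeval u p) = ∑ j, aeval u (pderiv j p) * pderiv k (u j) := by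
  classical
  induction p using MvPolynomial.induction_on with
  | C a => simp
  | add p q hp hq => simp [hp, hq, add_mul, Finset.sum_add_distrib]
  | mul_X p i hp =>
    have h : ∀ j, aeval u (pderiv j (p * X i)) * pderiv k (u j) =
        aeval u (pderiv j p) * pderiv k (u j) * u i +
          (if j = i then aeval u p * pderiv k (u i) else 0) := by
      intro j
      by_cases hji : j = i
      · subst hji
        rw [pderiv_mul, pderiv_X_self, if_pos rfl]
        simp only [map_add, map_mul, aeval_X, map_one]
        ring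
      · rw [pderiv_mul, pderiv_X_of_ne (Ne.symm hji), if_neg hji, mul_zero, add_zero, add_zero,
          map_mul, aeval_X]
        ring
    rw [Finset.sum_congr rfl fun j _ => h j, Finset.sum_add_distrib, Finset.sum_ite_eq',
      if_pos (Finset.mem_univ i), ← Finset.sum_mul, ← hp, map_mul, aeval_X, pderiv_mul]

theorem aeval_mk_self {σ : Type*} (φ : MvPolynomial σ ℂ ≃ₐ[ℂ] MvPolynomial σ ℂ)
    (p : MvPolynomial σ ℂ) : aeval (fun j => φ (X j)) p = φ p := by
  have h : (aeval fun j => φ (X j)) = φ.toAlgHom := by
    apply MvPolynomial.algHom_ext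
    intro i
    simp
  exact DFunLike.congr_fun h p

@[simp]
theorem algEquiv_C {σ : Type*} (φ : MvPolynomial σ ℂ ≃ₐ[ℂ] MvPolynomial σ ℂ) (c : ℂ) :
    φ (C c) = C c := φ.commutes c

theorem IsCoordinate.of_apply {f : MvPolynomial (Fin n) ℂ}
    (ψ : MvPolynomial (Fin n) ℂ ≃ₐ[ℂ] MvPolynomial (Fin n) ℂ) (h : IsCoordinate (ψ f)) :
    IsCoordinate f := by
  obtain ⟨φ, i, hi⟩ := h
  exact ⟨ψ.trans φ, i, by simpa using hi⟩

theorem gradient_ne_zero {f : MvPolynomial (Fin n) ℂ} (h : IsStableCoordinate f)
    (p : Fin n → ℂ) : ∃ j, eval p (pderiv j f) ≠ 0 := by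
  obtain ⟨m, -, φ, i, hi⟩ := h
  by_contra hc
  simp only [not_exists, not_not] at hc
  let F := rename (Fin.castAdd m) f
  let q : Fin (n + m) → ℂ := Fin.append p 0
  have hF : ∀ j, eval q (pderiv j F) = 0 := by
    intro j
    have hren : ∀ g, rename (Fin.castAdd m) g =
        aeval (fun l => (X (Fin.castAdd m l) : MvPolynomial (Fin (n + m)) ℂ)) g := fun g =>
      DFunLike.congr_fun (MvPolynomial.algHom_ext (by simp)) g
    have : F = aeval (fun l => X (Fin.castAdd m l)) f := hren f
    rw [this, chain_rule, map_sum]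
    refine Finset.sum_eq_zero fun l _ => ?_
    have hq : eval q (aeval (fun l => X (Fin.castAdd m l)) (pderiv l f)) = eval p (pderiv l f) := by
      have e : aeval (fun l => X (Fin.castAdd m l)) (pderiv l f) =
          rename (Fin.castAdd m) (pderiv l f) := (hren _).symm
      rw [e, eval_rename]
      congr 2
      funext a
      simp [q]
    rw [map_mul, hq, hc, zero_mul]
  have h1 : (1 : MvPolynomial (Fin (n + m)) ℂ) =
      ∑ j, pderiv j F * φ.symm (pderiv i (φ (X j))) := by
    have h0 : pderiv i (φ F) = 1 := by simp [F, hi]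
    rw [← aeval_mk_self φ F, chain_rule] at h0
    have := congrArg φ.symm h0
    simp only [map_sum, map_mul, map_one, aeval_mk_self, AlgEquiv.symm_apply_apply] at this
    exact this.symm
  have := congrArg (eval q) h1
  simp [hF] at this

theorem fibre_irreducible {f : MvPolynomial (Fin n) ℂ} (h : IsStableCoordinate f) (c : ℂ) :
    Irreducible (f - C c) := by
  classical
  obtain ⟨m, -, φ, i, hi⟩ := h
  let e : MvPolynomial (Fin (n + m)) ℂ ≃ₐ[ℂ] MvPolynomial (Fin (n + m)) ℂ :=
    AlgEquiv.ofAlgHom (aeval (Function.update X i (X i + C c)))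
      (aeval (Function.update X i (X i - C c)))
      (by
        apply MvPolynomial.algHom_ext
        intro j
        rcases eq_or_ne j i with rfl | hj <;> simp [*])
      (by
        apply MvPolynomial.algHom_ext
        intro j
        rcases eq_or_ne j i with rfl | hj <;> simp [*])
  let r : MvPolynomial (Fin (n + m)) ℂ →ₐ[ℂ] MvPolynomial (Fin n) ℂ :=
    aeval (Fin.append X 0)
  have hr : ∀ p, r (rename (Fin.castAdd m) p) = p := by
    intro p
    simp only [r, aeval_rename]
    have : ((Fin.append X 0 : Fin (n + m) → MvPolynomial (Fin n) ℂ) ∘ Fin.castAdd m) = X := by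
      funext a
      simp
    rw [this, aeval_X_left_apply]
  have hirr : Irreducible (rename (Fin.castAdd m) (f - C c)) := by
    have hx : Irreducible (e (φ (rename (Fin.castAdd m) (f - C c)))) := by
      have : e (φ (rename (Fin.castAdd m) (f - C c))) = X i := by
        simp [e, hi, map_sub]
      rw [this]
      exact (X_prime (i := i)).irreducible
    exact (MulEquiv.irreducible_iff φ).mp ((MulEquiv.irreducible_iff e).mp hx)
  refine ⟨fun hu => hirr.not_isUnit (hu.map _), fun a b hab => ?_⟩
  rcases hirr.isUnit_or_isUnit (a := rename (Fin.castAdd m) a) (b := rename (Fin.castAdd m) b)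
      (by rw [hab, map_mul]) with ha | hb
  · exact .inl (by simpa [hr] using ha.map r)
  · exact .inr (by simpa [hr] using hb.map r)

theorem notMem_vars_of_pderiv_eq_zero {k : Fin n} {g : MvPolynomial (Fin n) ℂ}
    (h : pderiv k g = 0) : k ∉ g.vars := by
  classical
  intro hk
  obtain ⟨d, hd, hdk⟩ := (mem_vars k).mp hk
  have hpos : 1 ≤ d k := Nat.one_le_iff_ne_zero.mpr (Finsupp.mem_support_iff.mp hdk)
  have hd' : d - Finsupp.single k 1 + Finsupp.single k 1 = d :=
    tsub_add_cancel_of_le (Finsupp.single_le_iff.mpr hpos)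
  have h0 := congrArg (coeff (d - Finsupp.single k 1)) h
  rw [coeff_pderiv, hd', coeff_zero] at h0
  rcases mul_eq_zero.mp h0 with h1 | h1
  · exact (mem_support_iff.mp hd) h1
  · exact Nat.cast_add_one_ne_zero _ h1

/-- The shear `X k ↦ X k + g` where `g` does not involve `X k`. -/
def shear (k : Fin n) (g : MvPolynomial (Fin n) ℂ)
    (hg : ∀ u : Fin n → MvPolynomial (Fin n) ℂ, (∀ j ≠ k, u j = X j) → aeval u g = g) :
    MvPolynomial (Fin n) ℂ ≃ₐ[ℂ] MvPolynomial (Fin n) ℂ :=
  AlgEquiv.ofAlgHom (aeval (Function.update X k (X k + g)))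
    (aeval (Function.update X k (X k - g)))
    (by
      apply MvPolynomial.algHom_ext
      intro j
      rcases eq_or_ne j k with rfl | hj
      · simp [hg (Function.update X j _) (fun l hl => Function.update_of_ne hl _ X)]
      · simp [hj])
    (by
      apply MvPolynomial.algHom_ext
      intro j
      rcases eq_or_ne j k with rfl | hj
      · simp [hg (Function.update X j _) (fun l hl => Function.update_of_ne hl _ X)]
      · simp [hj])

theorem shear_apply (k : Fin n) (g : MvPolynomial (Fin n) ℂ) (hg) (p : MvPolynomial (Fin n) ℂ) :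
    shear k g hg p = aeval (Function.update X k (X k + g)) p := rfl

theorem coordinate_of_pderiv_one {k : Fin n} {f : MvPolynomial (Fin n) ℂ}
    (h : pderiv k f = 1) : IsCoordinate f := by
  classical
  set g := f - X k with hg
  have hv : k ∉ g.vars := notMem_vars_of_pderiv_eq_zero (by simp [hg, h])
  have hfix : ∀ u : Fin n → MvPolynomial (Fin n) ℂ, (∀ j ≠ k, u j = X j) →
      aeval u (-g) = -g := by
    intro u hu
    rw [map_neg, neg_inj]
    conv_rhs => rw [← aeval_X_left_apply g]
    refine MvPolynomial.eval₂Hom_congr' rfl ?_ rfl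
    intro j hj _
    exact hu j (fun e => hv (e ▸ hj))
  refine ⟨shear k (-g) hfix, k, ?_⟩
  have hfg : f = X k + g := by simp [hg]
  have : aeval (Function.update X k (X k + -g)) g = g := by
    have := hfix (Function.update X k (X k + -g)) (fun l hl => Function.update_of_ne hl _ X)
    simpa using this
  rw [shear_apply, hfg]
  rw [map_add, aeval_X, Function.update_self, this]
  ring

/-- The linear substitution `X k ↦ v k X k`, `X j ↦ X j + v j X k`. -/
def linSubst (v : Fin n → ℂ) (k : Fin n) : Fin n → MvPolynomial (Fin n) ℂ :=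
  fun j => if j = k then C (v k) * X k else X j + C (v j) * X k

/-- The inverse substitution of `linSubst`. -/
def linSubstInv (v : Fin n → ℂ) (k : Fin n) : Fin n → MvPolynomial (Fin n) ℂ :=
  fun j => if j = k then C (v k)⁻¹ * X k else X j - C (v j * (v k)⁻¹) * X k

theorem linSubst_comp (v : Fin n → ℂ) (k : Fin n) (hk : v k ≠ 0) (j : Fin n) :
    aeval (linSubst v k) (linSubstInv v k j) = X j := by
  by_cases hj : j = k
  · subst hj
    rw [linSubstInv, if_pos rfl, map_mul, aeval_C, aeval_X, linSubst, if_pos rfl, algebraMap_eq,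
      ← mul_assoc, ← C_mul, inv_mul_cancel₀ hk, C_1, one_mul]
  · rw [linSubstInv, if_neg hj, map_sub, map_mul, aeval_C, aeval_X, aeval_X,
      show linSubst v k k = C (v k) * X k from if_pos rfl, linSubst, if_neg hj, algebraMap_eq, ← mul_assoc, ← C_mul, inv_mul_cancel_right₀ hk,
      add_sub_cancel_right]

theorem linSubstInv_comp (v : Fin n → ℂ) (k : Fin n) (hk : v k ≠ 0) (j : Fin n) :
    aeval (linSubstInv v k) (linSubst v k j) = X j := by
  by_cases hj : j = k
  · subst hj
    rw [linSubst, if_pos rfl, map_mul, aeval_C, aeval_X, linSubstInv, if_pos rfl, algebraMap_eq,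
      ← mul_assoc, ← C_mul, mul_inv_cancel₀ hk, C_1, one_mul]
  · rw [linSubst, if_neg hj, map_add, map_mul, aeval_C, aeval_X, aeval_X,
      show linSubstInv v k k = C (v k)⁻¹ * X k from if_pos rfl, linSubstInv, if_neg hj,
      algebraMap_eq, ← mul_assoc, ← C_mul, sub_add_cancel]

/-- `linSubst` as an automorphism. -/
def linEquiv (v : Fin n → ℂ) (k : Fin n) (hk : v k ≠ 0) :
    MvPolynomial (Fin n) ℂ ≃ₐ[ℂ] MvPolynomial (Fin n) ℂ :=
  AlgEquiv.ofAlgHom (aeval (linSubst v k)) (aeval (linSubstInv v k))
    (MvPolynomial.algHom_ext fun j => by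
      rw [AlgHom.comp_apply, aeval_X, linSubst_comp v k hk j, AlgHom.id_apply])
    (MvPolynomial.algHom_ext fun j => by
      rw [AlgHom.comp_apply, aeval_X, linSubstInv_comp v k hk j, AlgHom.id_apply])

theorem linEquiv_X (v : Fin n → ℂ) (k : Fin n) (hk : v k ≠ 0) (j : Fin n) :
    linEquiv v k hk (X j) = linSubst v k j := aeval_X _ _

theorem coordinate_of_directional {f : MvPolynomial (Fin n) ℂ} (v : Fin n → ℂ)
    (h : ∑ j, C (v j) * pderiv j f = 1) : IsCoordinate f := by
  classical
  have hv : ∃ k, v k ≠ 0 := by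
    by_contra hc
    simp only [not_exists, not_not] at hc
    simp [hc] at h
  obtain ⟨k, hk⟩ := hv
  refine IsCoordinate.of_apply (linEquiv v k hk) (coordinate_of_pderiv_one (k := k) ?_)
  have hd : ∀ j, pderiv k (linEquiv v k hk (X j)) = C (v j) := by
    intro j
    rw [linEquiv_X, linSubst]
    by_cases hj : j = k
    · subst hj
      rw [if_pos rfl, pderiv_C_mul, pderiv_X_self, mul_one]
    · rw [if_neg hj, map_add, pderiv_C_mul, pderiv_X_self, mul_one,
        pderiv_X_of_ne hj, zero_add]
  rw [← aeval_mk_self (linEquiv v k hk) f, chain_rule]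
  have hψ : linEquiv v k hk (∑ j, C (v j) * pderiv j f) = 1 := by rw [h, map_one]
  rw [← hψ, map_sum]
  refine Finset.sum_congr rfl fun j _ => ?_
  rw [hd, aeval_mk_self, map_mul, algEquiv_C, mul_comm]

theorem coordinate_of_totalDegree_le_two {f : MvPolynomial (Fin n) ℂ}
    (hs : IsStableCoordinate f) (hf : f.totalDegree ≤ 2) : IsCoordinate f := by
  classical
  let S : Submodule ℂ (MvPolynomial (Fin n) ℂ) :=
    Submodule.span ℂ (Set.range fun j => pderiv j f)
  by_cases h1 : (1 : MvPolynomial (Fin n) ℂ) ∈ S
  · obtain ⟨v, hv⟩ := (Submodule.mem_span_range_iff_exists_fun ℂ).mp h1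
    exact coordinate_of_directional v (by simpa [smul_eq_C_mul] using hv)
  exfalso
  obtain ⟨l, hl1, hl⟩ := Submodule.exists_dual_map_eq_bot_of_notMem h1 inferInstance
  let l' : MvPolynomial (Fin n) ℂ →ₗ[ℂ] ℂ := (l 1)⁻¹ • l
  have h'1 : l' 1 = 1 := by simp [l', hl1]
  have hker : ∀ j, l' (pderiv j f) = 0 := by
    intro j
    have : l (pderiv j f) ∈ Submodule.map l S :=
      Submodule.mem_map_of_mem (Submodule.subset_span ⟨j, rfl⟩)
    rw [hl] at this
    simp [l', (Submodule.mem_bot ℂ).mp this]
  obtain ⟨j, hj⟩ := gradient_ne_zero hs (fun i => l' (X i))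
  apply hj
  rw [← hker j]
  -- the two linear forms agree on polynomials of degree at most one
  set p := fun i => l' (X i)
  set g := pderiv j f with hg
  rw [g.as_sum, map_sum, map_sum]
  refine Finset.sum_congr rfl fun d hd => ?_
  have hdeg : d.degree ≤ 1 := by
    have hne : coeff (d + Finsupp.single j 1) f ≠ 0 := by
      intro h0
      rw [hg, mem_support_iff, coeff_pderiv, h0, zero_mul] at hd
      exact hd rfl
    have := le_totalDegree (mem_support_iff.mpr hne)
    have e : ((d + Finsupp.single j 1).sum fun _ e => e) = d.degree + 1 := by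
      rw [Finsupp.sum_add_index' (fun _ => rfl) (fun _ _ _ => rfl), Finsupp.sum_single_index rfl]
      rfl
    omega
  rcases Nat.le_one_iff_eq_zero_or_eq_one.mp hdeg with h0 | h0
  · obtain rfl := (Finsupp.degree_eq_zero_iff d).mp h0
    rw [show monomial 0 (coeff 0 g) = coeff 0 g • (1 : MvPolynomial (Fin n) ℂ) by
      simp [smul_eq_C_mul]]
    simp [h'1]
  · obtain ⟨i, rfl⟩ := (Finsupp.sum_eq_one_iff d).mp h0
    have : monomial (Finsupp.single i 1) (coeff (Finsupp.single i 1) g) =
        coeff (Finsupp.single i 1) g • (X i : MvPolynomial (Fin n) ℂ) := by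
      simp [X, smul_monomial]
    rw [this, l'.map_smul, MvPolynomial.smul_eval, eval_X, smul_eq_mul]

/-- Substitute the variable `X i₀` into a univariate polynomial. -/
abbrev sub (i₀ : Fin n) : Polynomial ℂ →ₐ[ℂ] MvPolynomial (Fin n) ℂ := Polynomial.aeval (X i₀)

theorem eval_sub (i₀ : Fin n) (x : Fin n → ℂ) (p : Polynomial ℂ) :
    eval x (sub i₀ p) = p.eval (x i₀) := by
  induction p using Polynomial.induction_on' with
  | add p q hp hq => simp only [map_add, hp, hq, Polynomial.eval_add]
  | monomial k a => simp [sub, Polynomial.aeval_monomial]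

theorem not_isUnit_of_eval {p : MvPolynomial (Fin n) ℂ} (x : Fin n → ℂ) (h : eval x p = 0) :
    ¬ IsUnit p := fun hu => not_isUnit_zero (h ▸ hu.map (eval x))

/-- A polynomial that is affine in all variables but `X i₀`, in coefficient form. -/
def form (i₀ : Fin n) (b : Polynomial ℂ) (a : Fin n → Polynomial ℂ) : MvPolynomial (Fin n) ℂ :=
  sub i₀ b + ∑ j ∈ Finset.univ.erase i₀, sub i₀ (a j) * X j

theorem coordinate_of_form (i₀ : Fin n) (b : Polynomial ℂ) :
    ∀ (N : ℕ) (a : Fin n → Polynomial ℂ),
      (∑ j ∈ Finset.univ.erase i₀, if a j = 0 then 0 else (a j).natDegree + 1) = N →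
      (∀ c, Irreducible (form i₀ b a - C c)) → IsCoordinate (form i₀ b a) := by
  classical
  intro N
  induction N using Nat.strong_induction_on with
  | _ N ih =>
  intro a hN hirr
  set s := Finset.univ.erase i₀ with hs
  by_cases htwo : ∃ j ∈ s, ∃ l ∈ s, j ≠ l ∧ a j ≠ 0 ∧ a l ≠ 0 ∧
      (a j).natDegree ≤ (a l).natDegree
  · obtain ⟨j, hjs, l, hls, hjl, haj, hal, hdeg⟩ := htwo
    have hj0 : j ≠ i₀ := (Finset.mem_erase.mp hjs).1
    set q := a l / a j with hq
    let a' := Function.update a l (a l % a j)
    have hfix : ∀ u : Fin n → MvPolynomial (Fin n) ℂ, (∀ k ≠ j, u k = X k) →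
        aeval u (-(sub i₀ q * X l)) = -(sub i₀ q * X l) := by
      intro u hu
      simp [sub, ← Polynomial.aeval_algHom_apply, hu l hjl.symm, hu i₀ hj0.symm]
    set ψ := shear j (-(sub i₀ q * X l)) hfix with hψ
    have hX : ∀ k, k ≠ j → ψ (X k) = X k := fun k hk => by
      simp [hψ, shear_apply, Function.update_of_ne hk]
    have hsub : ∀ p, ψ (sub i₀ p) = sub i₀ p := fun p => by
      rw [sub, ← AlgEquiv.coe_algHom, ← Polynomial.aeval_algHom_apply, AlgEquiv.coe_algHom,
        hX i₀ hj0.symm]
    have hmain : ψ (form i₀ b a) = form i₀ b a' := by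
      simp only [form, map_add, map_sum, map_mul, hsub, ← hs]
      congr 1
      rw [← Finset.add_sum_erase s _ hjs, ← Finset.add_sum_erase s _ hjs]
      have hls' : l ∈ s.erase j := Finset.mem_erase.mpr ⟨hjl.symm, hls⟩
      rw [← Finset.add_sum_erase _ _ hls', ← Finset.add_sum_erase _ _ hls']
      have hrest : ∑ k ∈ (s.erase j).erase l, sub i₀ (a k) * ψ (X k) =
          ∑ k ∈ (s.erase j).erase l, sub i₀ (a' k) * X k := by
        refine Finset.sum_congr rfl fun k hk => ?_
        simp only [Finset.mem_erase] at hk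
        simp only [a', hX k hk.2.1, Function.update_of_ne hk.1]
      rw [hrest, hX l hjl.symm]
      have hψj : ψ (X j) = X j - sub i₀ q * X l := by
        simp [hψ, shear_apply, sub_eq_add_neg]
      have hmod : a' l = a l - q * a j := by
        simp [a', hq, EuclideanDomain.mod_eq_sub_mul_div, mul_comm]
      rw [hψj, hmod, show a' j = a j from Function.update_of_ne hjl _ _, map_sub, map_mul]
      ring
    refine IsCoordinate.of_apply ψ ?_
    rw [hmain]
    refine ih _ ?_ a' rfl (fun c => ?_)
    · rw [← hN]
      refine Finset.sum_lt_sum (fun k _ => ?_) ⟨l, hls, ?_⟩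
      · rcases eq_or_ne k l with rfl | hk
        · simp only [a', Function.update_self]
          split_ifs with h0
          · simp
          · have : (a k % a j).natDegree < (a j).natDegree :=
              Polynomial.natDegree_lt_natDegree h0 (EuclideanDomain.remainder_lt _ haj)
            omega
        · simp [a', hk]
      · simp only [a', Function.update_self, if_neg hal]
        split_ifs with h0
        · simp
        · have : (a l % a j).natDegree < (a j).natDegree :=
            Polynomial.natDegree_lt_natDegree h0 (EuclideanDomain.remainder_lt _ haj)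
          omega
    · have := (MulEquiv.irreducible_iff ψ).mpr (hirr c)
      simpa [map_sub, hmain] using this
  · by_cases hone : ∃ j ∈ s, a j ≠ 0
    · obtain ⟨j, hjs, haj⟩ := hone
      have hj0 : j ≠ i₀ := (Finset.mem_erase.mp hjs).1
      have hothers : ∀ k ∈ s, k ≠ j → a k = 0 := by
        intro k hk hkj
        by_contra hak
        rcases le_total (a j).natDegree (a k).natDegree with hle | hle
        · exact htwo ⟨j, hjs, k, hk, hkj.symm, haj, hak, hle⟩
        · exact htwo ⟨k, hk, j, hjs, hkj, hak, haj, hle⟩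
      have hf : form i₀ b a = sub i₀ b + sub i₀ (a j) * X j := by
        rw [form, ← hs, Finset.sum_eq_single_of_mem j hjs
          (fun k hk hkj => by simp [hothers k hk hkj])]
      rcases Nat.eq_zero_or_pos (a j).natDegree with hd | hd
      · obtain ⟨c, hc⟩ := Polynomial.natDegree_eq_zero.mp hd
        have hc0 : c ≠ 0 := by
          rintro rfl
          exact haj (by simpa using hc.symm)
        have hkey : ∀ p : Polynomial ℂ, pderiv j (sub i₀ p) = 0 := by
          intro p
          induction p using Polynomial.induction_on' with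
          | add p q hp hq => simp only [map_add, hp, hq, add_zero]
          | monomial k r => simp [sub, Polynomial.aeval_monomial, pderiv_X_of_ne hj0.symm]
        refine coordinate_of_directional (fun k => if k = j then c⁻¹ else 0) ?_
        rw [Finset.sum_eq_single j (fun k _ hk => by simp [hk]) (by simp)]
        simp [hf, ← hc, hkey, sub, ← map_mul, hc0]
      · exfalso
        obtain ⟨t, ht⟩ := IsAlgClosed.exists_root (a j)
          (fun h0 => by
            have := Polynomial.natDegree_eq_zero_iff_degree_le_zero.mpr h0.le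
            omega)
        obtain ⟨a1, ha1⟩ := Polynomial.dvd_iff_isRoot.mpr ht
        obtain ⟨b1, hb1⟩ := Polynomial.X_sub_C_dvd_sub_C_eval (p := b) (a := t)
        have hfac : form i₀ b a - C (b.eval t) =
            sub i₀ (Polynomial.X - Polynomial.C t) * (sub i₀ b1 + sub i₀ a1 * X j) := by
          have e : sub i₀ (b - Polynomial.C (b.eval t)) = sub i₀ b - C (b.eval t) := by
            simp [sub]
          rw [mul_add, ← mul_assoc, ← map_mul, ← map_mul, ← hb1, ← ha1, e, hf]
          ring
        have ha10 : a1 ≠ 0 := by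
          rintro rfl
          exact haj (by simpa using ha1)
        rcases (hirr (b.eval t)).isUnit_or_isUnit hfac with hu | hu
        · exact not_isUnit_of_eval (fun _ => t) (by rw [eval_sub]; simp) hu
        · obtain ⟨t1, ht1⟩ := Polynomial.exists_eval_ne_zero_of_natDegree_lt_card a1 ha10
            (lt_of_lt_of_le Cardinal.natCast_lt_aleph0 (Cardinal.aleph0_le_mk ℂ))
          refine not_isUnit_of_eval
            (fun k => if k = j then -(b1.eval t1) / a1.eval t1 else t1) ?_ hu
          rw [map_add, map_mul, eval_sub, eval_sub, eval_X, if_pos rfl, if_neg hj0.symm]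
          field_simp
          ring
    · have hone' : ∀ j ∈ s, a j = 0 := fun j hj =>
        by_contra fun h => hone ⟨j, hj, h⟩
      have hf : form i₀ b a = sub i₀ b := by
        rw [form, ← hs, Finset.sum_eq_zero (fun j hj => by simp [hone' j hj]), add_zero]
      have hb : b.natDegree ≠ 0 := by
        intro h0
        obtain ⟨c, hc⟩ := Polynomial.natDegree_eq_zero.mp h0
        exact (hirr c).ne_zero (by rw [hf, ← hc]; simp [sub])
      obtain ⟨t, ht⟩ := IsAlgClosed.exists_root b
        (fun h0 => hb (Polynomial.natDegree_eq_of_degree_eq_some h0))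
      obtain ⟨b1, hb1⟩ := Polynomial.dvd_iff_isRoot.mpr ht
      have hfac : form i₀ b a - C 0 = sub i₀ (Polynomial.X - Polynomial.C t) * sub i₀ b1 := by
        rw [← map_mul, ← hb1, hf]; simp
      rcases (hirr 0).isUnit_or_isUnit hfac with hu | hu
      · exact absurd hu (not_isUnit_of_eval (fun _ => t) (by rw [eval_sub]; simp))
      · have hb1d : b1.natDegree = 0 := by
          by_contra hd
          obtain ⟨t1, ht1⟩ := IsAlgClosed.exists_root b1
            (fun h0 => hd (Polynomial.natDegree_eq_of_degree_eq_some h0))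
          exact not_isUnit_of_eval (fun _ => t1) (by rw [eval_sub]; exact ht1) hu
        obtain ⟨c, hc⟩ := Polynomial.natDegree_eq_zero.mp hb1d
        have hc0 : c ≠ 0 := by
          rintro rfl
          exact hb (by simp [hb1, ← hc])
        refine coordinate_of_directional (fun k => if k = i₀ then c⁻¹ else 0) ?_
        rw [Finset.sum_eq_single i₀ (fun k _ hk => by simp [hk]) (by simp)]
        rw [hf, hb1, ← hc]
        simp [sub, pderiv_mul, ← map_mul, hc0]

theorem exists_form (i₀ : Fin n) (f : MvPolynomial (Fin n) ℂ)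
    (hf : ∀ d ∈ f.support, ∑ j ∈ Finset.univ.erase i₀, d j ≤ 1) :
    ∃ b a, f = form i₀ b a := by
  classical
  suffices h : ∀ t : Finset (Fin n →₀ ℕ), (∀ d ∈ t, ∑ j ∈ Finset.univ.erase i₀, d j ≤ 1) →
      ∃ b a, ∑ d ∈ t, monomial d (coeff d f) = form i₀ b a by
    obtain ⟨b, a, h⟩ := h f.support hf
    exact ⟨b, a, by rw [← h, ← f.as_sum]⟩
  intro t
  induction t using Finset.induction_on with
  | empty => exact fun _ => ⟨0, 0, by simp [form]⟩
  | @insert d t hd iht =>
    intro h
    obtain ⟨b, a, hba⟩ := iht (fun e he => h e (Finset.mem_insert_of_mem he))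
    rw [Finset.sum_insert hd, hba]
    set r := coeff d f
    have hd1 := h d (Finset.mem_insert_self _ _)
    by_cases hz : ∀ j ∈ Finset.univ.erase i₀, d j = 0
    · refine ⟨b + Polynomial.monomial (d i₀) r, a, ?_⟩
      have : d = Finsupp.single i₀ (d i₀) := by
        ext k
        rcases eq_or_ne k i₀ with rfl | hk
        · simp
        · simp [hz k (by simp [hk]), Finsupp.single_eq_of_ne hk]
      have e : monomial d r = sub i₀ (Polynomial.monomial (d i₀) r) := by
        conv_lhs => rw [this]
        simp [sub, Polynomial.aeval_monomial, X_pow_eq_monomial, C_mul_monomial]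
      rw [e, form, form, map_add]
      ring
    · simp only [not_forall] at hz
      obtain ⟨j, hj, hdj⟩ := hz
      have hj0 : j ≠ i₀ := (Finset.mem_erase.mp hj).1
      refine ⟨b, Function.update a j (a j + Polynomial.monomial (d i₀) r), ?_⟩
      have hsum := Finset.add_sum_erase (Finset.univ.erase i₀) (fun k => d k) hj
      have hdj1 : d j = 1 := by omega
      have hzero : ∀ k ∈ (Finset.univ.erase i₀).erase j, d k = 0 := by
        intro k hk
        have := Finset.single_le_sum (fun k _ => Nat.zero_le (d k)) hk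
        omega
      have hd' : d = Finsupp.single i₀ (d i₀) + Finsupp.single j 1 := by
        ext k
        rcases eq_or_ne k i₀ with rfl | hk
        · simp [Finsupp.single_eq_of_ne hj0.symm]
        rcases eq_or_ne k j with rfl | hkj
        · simp [hdj1, Finsupp.single_eq_of_ne hk]
        · simp [hzero k (by simp [hk, hkj]), Finsupp.single_eq_of_ne hk,
            Finsupp.single_eq_of_ne hkj]
      have e : monomial d r = sub i₀ (Polynomial.monomial (d i₀) r) * X j := by
        conv_lhs => rw [hd']
        simp [sub, Polynomial.aeval_monomial, monomial_add_single, C_mul_X_pow_eq_monomial]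
      rw [e, form, form, ← Finset.add_sum_erase _ _ hj, ← Finset.add_sum_erase _ _ hj]
      simp only [Function.update_self, map_add, add_mul]
      have hrest : ∑ k ∈ (Finset.univ.erase i₀).erase j,
          sub i₀ (Function.update a j (a j + Polynomial.monomial (d i₀) r) k) * X k =
          ∑ k ∈ (Finset.univ.erase i₀).erase j, sub i₀ (a k) * X k := by
        refine Finset.sum_congr rfl fun k hk => ?_
        rw [Function.update_of_ne (Finset.mem_erase.mp hk).1]
      rw [hrest]
      ring

theorem coordinate_of_affine {f : MvPolynomial (Fin n) ℂ} (hs : IsStableCoordinate f)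
    (i₀ : Fin n) (hf : ∀ d ∈ f.support, ∑ j ∈ Finset.univ.erase i₀, d j ≤ 1) :
    IsCoordinate f := by
  obtain ⟨b, a, rfl⟩ := exists_form i₀ f hf
  exact coordinate_of_form i₀ b _ a rfl (fibre_irreducible hs)

end Vale.Agent.P295
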